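import Vale.Agent.P074.H51.Strips

open MeasureTheory Set Metric Filter Topology
open scoped ENNReal NNReal RealInnerProductSpace

namespace Vale.Agent.P074.H51

variable {d : ℕ}

/-- The half of the slabs with even numbers, in the upper part of the cube. -/
def piece (i0 i1 : Fin d) (q : E d) (r h : ℝ) : Set (E d) :=
  {x | (0 ≤ x i0 - (q i0 - r) ∧ x i0 - (q i0 - r) < 2 * r) ∧
    Even ⌊(x i0 - (q i0 - r)) / h⌋₊ ∧ (r / 2 ≤ x i1 - q i1 ∧ x i1 - q i1 ≤ r) ∧
    ∀ i, i ≠ i0 → i ≠ i1 → |x i - q i| ≤ r}

/-- The displacement of the exchange. -/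
noncomputable def vec (i0 i1 : Fin d) (r h : ℝ) : E d :=
  EuclideanSpace.single i0 h - EuclideanSpace.single i1 (3 * r / 2)

theorem measurableSet_piece (i0 i1 : Fin d) (q : E d) (r h : ℝ) :
    MeasurableSet (piece i0 i1 q r h) := by
  have m1 : Measurable fun x : E d => x i0 - (q i0 - r) := by fun_prop
  have m2 : Measurable fun x : E d => ⌊(x i0 - (q i0 - r)) / h⌋₊ := (m1.div_const h).nat_floor
  have m3 : Measurable fun x : E d => x i1 - q i1 := by fun_prop
  apply MeasurableSet.inter
  · exact (measurableSet_le measurable_const m1).inter (measurableSet_lt m1 measurable_const)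
  apply MeasurableSet.inter
  · exact m2 (MeasurableSet.of_discrete (s := {j : ℕ | Even j}))
  apply MeasurableSet.inter
  · exact (measurableSet_le measurable_const m3).inter (measurableSet_le m3 measurable_const)
  have e : {x : E d | ∀ i, i ≠ i0 → i ≠ i1 → |x i - q i| ≤ r} =
      ⋂ i, ⋂ (_ : i ≠ i0), ⋂ (_ : i ≠ i1), {x : E d | |x i - q i| ≤ r} := by
    ext x; simp
  change MeasurableSet {x : E d | ∀ i, i ≠ i0 → i ≠ i1 → |x i - q i| ≤ r}
  rw [e]
  refine MeasurableSet.iInter fun i => MeasurableSet.iInter fun _ => MeasurableSet.iInter fun _ => ?_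
  have m4 : Measurable fun x : E d => |x i - q i| := by fun_prop
  exact measurableSet_le m4 measurable_const

theorem vec_i0 {i0 i1 : Fin d} (h01 : i0 ≠ i1) (r h : ℝ) (x : E d) :
    (x + vec i0 i1 r h) i0 = x i0 + h := by
  unfold vec; simp [h01]

theorem vec_i1 {i0 i1 : Fin d} (h01 : i0 ≠ i1) (r h : ℝ) (x : E d) :
    (x + vec i0 i1 r h) i1 = x i1 - 3 * r / 2 := by
  unfold vec; simp [h01.symm]; ring

theorem vec_other {i0 i1 i : Fin d} (h0 : i ≠ i0) (h1 : i ≠ i1) (r h : ℝ) (x : E d) :
    (x + vec i0 i1 r h) i = x i := by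
  unfold vec; simp [h0, h1]

section

variable {i0 i1 : Fin d} {q : E d} {r : ℝ} {n : ℕ}

/-- The numerical facts about a point of the piece. -/
theorem piece_facts (hr : 0 < r) (hn : 0 < n) {x : E d} (hx : x ∈ piece i0 i1 q r (r / n)) :
    idx i0 (q i0 - r) (r / n) (2 * n) x = ⌊(x i0 - (q i0 - r)) / (r / n)⌋₊ ∧
    ⌊(x i0 - (q i0 - r)) / (r / n)⌋₊ + 1 ≤ 2 * n - 1 ∧
    x i0 - (q i0 - r) + r / n < 2 * r := by
  have hnR : (0 : ℝ) < n := by exact_mod_cast hn
  have hh : 0 < r / n := by positivity
  obtain ⟨⟨h1, h2⟩, h3, -, -⟩ := hx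
  set s := x i0 - (q i0 - r) with hs
  set j := ⌊s / (r / n)⌋₊ with hj
  have h4 : s / (r / n) < ((2 * n : ℕ) : ℝ) := by
    rw [div_lt_iff₀ hh]
    push_cast
    field_simp
    linarith
  have h5 : j < 2 * n := (Nat.floor_lt (by positivity)).2 h4
  have h6 : j + 1 ≤ 2 * n - 1 := by
    obtain ⟨k, hk⟩ := h3
    omega
  refine ⟨?_, h6, ?_⟩
  · unfold idx
    show min j (2 * n - 1) = j
    exact min_eq_left (by omega)
  · have h7 : s / (r / n) < j + 1 := Nat.lt_floor_add_one _
    have h8 : (j : ℝ) + 1 ≤ 2 * n - 1 := by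
      have : ((j + 1 : ℕ) : ℝ) ≤ ((2 * n - 1 : ℕ) : ℝ) := by exact_mod_cast h6
      rw [Nat.cast_sub (by omega)] at this
      push_cast at this
      exact this
    have h9 : s / (r / n) < 2 * n - 1 := lt_of_lt_of_le h7 h8
    rw [div_lt_iff₀ hh] at h9
    have h10 : (2 * (n : ℝ) - 1) * (r / n) = 2 * r - r / n := by field_simp
    linarith

theorem piece_cube (hr : 0 < r) {h : ℝ} {x : E d} (hx : x ∈ piece i0 i1 q r h) (i : Fin d) :
    |x i - q i| ≤ r := by
  obtain ⟨⟨h1, h2⟩, -, ⟨h3, h4⟩, h5⟩ := hx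
  by_cases hi0 : i = i0
  · subst hi0
    rw [abs_le]; constructor <;> linarith
  by_cases hi1 : i = i1
  · subst hi1
    rw [abs_le]; constructor <;> linarith
  exact h5 i hi0 hi1

theorem piece_cube' (h01 : i0 ≠ i1) (hr : 0 < r) (hn : 0 < n) {x : E d}
    (hx : x ∈ piece i0 i1 q r (r / n)) (i : Fin d) :
    |(x + vec i0 i1 r (r / n)) i - q i| ≤ r := by
  have hnR : (0 : ℝ) < n := by exact_mod_cast hn
  have hh : 0 < r / n := by positivity
  have hf := (piece_facts hr hn hx).2.2
  obtain ⟨⟨h1, h2⟩, -, ⟨h3, h4⟩, h5⟩ := hx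
  by_cases hi0 : i = i0
  · subst hi0
    rw [vec_i0 h01, abs_le]; constructor <;> linarith
  by_cases hi1 : i = i1
  · subst hi1
    rw [vec_i1 h01, abs_le]; constructor <;> linarith
  rw [vec_other hi0 hi1]
  exact h5 i hi0 hi1

theorem piece_shift (h01 : i0 ≠ i1) (hr : 0 < r) {h : ℝ} {x : E d}
    (hx : x ∈ piece i0 i1 q r h) : x + vec i0 i1 r h ∉ piece i0 i1 q r h := by
  intro hcon
  obtain ⟨-, -, ⟨h3, h4⟩, -⟩ := hx
  obtain ⟨-, -, ⟨h5, h6⟩, -⟩ := hcon
  rw [vec_i1 h01] at h5
  linarith

/-- The number of the slab after the shift. -/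
theorem piece_idx (h01 : i0 ≠ i1) (hr : 0 < r) (hn : 0 < n) {x : E d}
    (hx : x ∈ piece i0 i1 q r (r / n)) :
    idx i0 (q i0 - r) (r / n) (2 * n) (x + vec i0 i1 r (r / n)) =
      idx i0 (q i0 - r) (r / n) (2 * n) x + 1 ∧
    Even (idx i0 (q i0 - r) (r / n) (2 * n) x) := by
  have hnR : (0 : ℝ) < n := by exact_mod_cast hn
  have hh : 0 < r / n := by positivity
  obtain ⟨e1, h6, -⟩ := piece_facts hr hn hx
  obtain ⟨⟨h1, h2⟩, h3, -, -⟩ := hx
  rw [e1]
  refine ⟨?_, h3⟩
  unfold idx
  rw [vec_i0 h01]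
  have e2 : (x i0 + r / n - (q i0 - r)) / (r / n) = (x i0 - (q i0 - r)) / (r / n) + 1 := by
    field_simp
    ring
  rw [e2, Nat.floor_add_one (by positivity)]
  exact min_eq_left h6

/-- The value of the exchanged energy at a point of the piece. -/
theorem piece_value (h01 : i0 ≠ i1) (hr : 0 < r) (hn : 0 < n) (y0 : E d) (w δ : ℝ) {x : E d}
    (hx : x ∈ piece i0 i1 q r (r / n)) :
    (inner ℝ (vec i0 i1 r (r / n))
      (siteB i0 i1 y0 w δ (idx i0 (q i0 - r) (r / n) (2 * n) x) -
        siteB i0 i1 y0 w δ (idx i0 (q i0 - r) (r / n) (2 * n) (x + vec i0 i1 r (r / n)))) : ℝ) =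
      3 * r * δ - r / n * w := by
  obtain ⟨e1, e2⟩ := piece_idx h01 hr hn hx
  rw [e1]
  set j := idx i0 (q i0 - r) (r / n) (2 * n) x with hj
  have e3 : siteB i0 i1 y0 w δ j - siteB i0 i1 y0 w δ (j + 1) =
      EuclideanSpace.single i0 (-w) + EuclideanSpace.single i1 (-(2 * δ)) := by
    unfold siteB
    have h3 : ¬ Even (j + 1) := by
      rw [Nat.even_add_one, not_not]; exact e2
    rw [if_pos e2, if_neg h3]
    ext k
    by_cases hk0 : k = i0
    · subst hk0
      simp [h01]
      ring
    by_cases hk1 : k = i1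
    · subst hk1
      simp [h01.symm]
      ring
    simp [hk0, hk1]
  rw [e3]
  unfold vec
  rw [inner_add_right, EuclideanSpace.inner_single_right, EuclideanSpace.inner_single_right]
  simp [h01, h01.symm]
  ring

/-- The volume of the piece is at least half the volume of a fixed box. -/
theorem piece_volume (h01 : i0 ≠ i1) (hr : 0 < r) (hn : 0 < n) :
    volume {x : E d | ∀ i, x i ∈ Icc (if i = i0 then q i0 - r else if i = i1 then q i1 + r / 2
      else q i - r) (if i = i0 then q i0 else q i + r)} ≤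
      2 * volume (piece i0 i1 q r (r / n)) := by
  have hnR : (0 : ℝ) < n := by exact_mod_cast hn
  have hh : 0 < r / n := by positivity
  set u : E d := EuclideanSpace.single i0 (r / n) with hu
  have hsub : {x : E d | ∀ i, x i ∈ Icc (if i = i0 then q i0 - r else if i = i1 then q i1 + r / 2
      else q i - r) (if i = i0 then q i0 else q i + r)} ⊆
      piece i0 i1 q r (r / n) ∪ (fun x => x + (-u)) ⁻¹' (piece i0 i1 q r (r / n)) := by
    intro x hx
    have hx0 := hx i0
    have hx1 := hx i1
    simp only [if_true, h01.symm, if_false] at hx0 hx1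
    have hoth : ∀ i, i ≠ i0 → i ≠ i1 → |x i - q i| ≤ r := by
      intro i h0 h1
      have := hx i
      simp only [h0, h1, if_false] at this
      rw [abs_le]; constructor <;> linarith [this.1, this.2]
    by_cases hev : Even ⌊(x i0 - (q i0 - r)) / (r / n)⌋₊
    · left
      exact ⟨⟨by linarith [hx0.1], by linarith [hx0.2]⟩, hev,
        ⟨by linarith [hx1.1], by linarith [hx1.2]⟩, hoth⟩
    · right
      have hxu0 : (x + -u) i0 = x i0 - r / n := by rw [hu]; simp; ring
      have hxu : ∀ i, i ≠ i0 → (x + -u) i = x i := by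
        intro i hi; rw [hu]; simp [hi]
      have hpos : 1 ≤ ⌊(x i0 - (q i0 - r)) / (r / n)⌋₊ := by
        rcases Nat.eq_zero_or_pos ⌊(x i0 - (q i0 - r)) / (r / n)⌋₊ with h | h
        · exact absurd (by rw [h]; exact Even.zero) hev
        · exact h
      have h1 : 1 ≤ (x i0 - (q i0 - r)) / (r / n) := by
        have := (Nat.le_floor_iff' one_ne_zero).1 hpos
        simpa using this
      have h2 : r / n ≤ x i0 - (q i0 - r) := by
        rw [le_div_iff₀ hh] at h1; linarith
      refine ⟨⟨?_, ?_⟩, ?_, ⟨?_, ?_⟩, ?_⟩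
      · rw [hxu0]; linarith
      · rw [hxu0]; linarith [hx0.2]
      · rw [hxu0]
        have e : (x i0 - r / n - (q i0 - r)) / (r / n) = (x i0 - (q i0 - r)) / (r / n) - 1 := by
          field_simp
          ring
        rw [e, Nat.floor_sub_one]
        rw [Nat.not_even_iff_odd] at hev
        obtain ⟨k, hk⟩ := hev
        rw [hk]
        simp
      · rw [hxu i1 h01.symm]; linarith [hx1.1]
      · rw [hxu i1 h01.symm]; linarith [hx1.2]
      · intro i h0 h1
        rw [hxu i h0]
        exact hoth i h0 h1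
  refine (measure_mono hsub).trans ((measure_union_le _ _).trans ?_)
  rw [measure_preimage_add_right, two_mul]

end

/-- **No exponent above `1/2`**, in any `L^q` norm and for any `W_p`: it fails already in
`L^1`, for every single compact `K` and `Y` with nonempty interior. -/
theorem half_le (hd : 2 ≤ d) {K Y : Set (E d)} (hK : IsCompact K)
    (hKi : (interior K).Nonempty) (hY : IsCompact Y) (hYi : (interior Y).Nonempty)
    {p α : ℝ} (hp : 0 < p) (hα : 0 ≤ α) {C : ℝ≥0}
    (hst : ∀ μ ν : Measure (E d), IsProbabilityMeasure μ → IsProbabilityMeasure ν →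
      μ Yᶜ = 0 → ν Yᶜ = 0 → ∀ T S : E d → E d, IsOptimalMap (unif K) μ T →
        IsOptimalMap (unif K) ν S →
        eLpNorm (fun x => T x - S x) 1 (unif K) ≤ C * Wass p μ ν ^ α) : α ≤ 1 / 2 := by
  classical
  let i0 : Fin d := ⟨0, by omega⟩
  let i1 : Fin d := ⟨1, by omega⟩
  have h01 : i0 ≠ i1 := by simp [i0, i1]
  have hprob : IsProbabilityMeasure (unif K) := isProbabilityMeasure_unif hK hKi
  obtain ⟨q, r, hr, hcube⟩ := exists_cube hKi
  obtain ⟨R, hRpos, hKR⟩ := hK.isBounded.exists_pos_norm_le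
  obtain ⟨M, hMpos, hYM⟩ := hY.isBounded.exists_pos_norm_le
  obtain ⟨y0, hy0⟩ := hYi
  obtain ⟨s', hs', hball⟩ := Metric.isOpen_iff.1 isOpen_interior y0 hy0
  set κ : ℝ := s' / (4 * r) with hκdef
  have hκ : 0 < κ := by positivity
  have hκr : κ * r = s' / 4 := by rw [hκdef]; field_simp
  have hRae : ∀ᵐ x ∂(unif K), ‖x‖ ≤ R := by
    have : ∀ᵐ x ∂(volume.restrict K), ‖x‖ ≤ R := by
      filter_upwards [ae_restrict_mem hK.measurableSet] with x hx using hKR x hx
    unfold unif ProbabilityTheory.cond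
    exact Measure.ae_smul_measure this _
  have hvK0 : volume K ≠ 0 := (Measure.measure_pos_of_nonempty_interior _ hKi).ne'
  have hvKt : volume K ≠ ∞ := hK.measure_ne_top
  set Box : Set (E d) := {x : E d | ∀ i, x i ∈ Icc (if i = i0 then q i0 - r else
    if i = i1 then q i1 + r / 2 else q i - r) (if i = i0 then q i0 else q i + r)} with hBox
  have hBv : volume Box ≠ 0 := by
    rw [hBox, volume_box]
    rw [Finset.prod_ne_zero_iff]
    intro i _
    rw [ENNReal.ofReal_ne_zero_iff]
    by_cases h0 : i = i0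
    · simp only [h0, if_true]; linarith
    by_cases h1 : i = i1
    · simp only [h1, h01.symm, if_true, if_false]; linarith
    simp only [h0, h1, if_false]; linarith
  have hBvt : volume Box ≠ ∞ := by
    rw [hBox, volume_box]
    exact ENNReal.prod_ne_top fun i _ => ENNReal.ofReal_ne_top
  set β : ℝ := ((volume K)⁻¹ * volume Box).toReal / 2 with hβdef
  have hβt : (volume K)⁻¹ * volume Box ≠ ∞ :=
    ENNReal.mul_ne_top (ENNReal.inv_ne_top.2 hvK0) hBvt
  have hβ : 0 < β := by
    have : 0 < ((volume K)⁻¹ * volume Box).toReal :=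
      ENNReal.toReal_pos (mul_ne_zero (ENNReal.inv_ne_zero.2 hvKt) hBv) hβt
    positivity
  -- the main estimate
  have main : ∀ n : ℕ, 0 < n → κ * r * β / (2 * R) * (r / n) ≤ C * (κ * r / n ^ 2) ^ α := by
    intro n hn
    have hnR : (0 : ℝ) < n := by exact_mod_cast hn
    have hn1 : (1 : ℝ) ≤ n := by exact_mod_cast hn
    set h : ℝ := r / n with hh
    have hh0 : 0 < h := by positivity
    have hhr : h ≤ r := by rw [hh]; exact div_le_self hr.le hn1
    set w : ℝ := κ * h with hw
    have hw0 : 0 < w := by positivity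
    set δ : ℝ := κ * h ^ 2 / r with hδ
    have hδ0 : 0 < δ := by positivity
    have hδr : δ ≤ κ * r := by
      rw [hδ, div_le_iff₀ hr]
      have : h ^ 2 ≤ r ^ 2 := pow_le_pow_left₀ hh0.le hhr 2
      nlinarith
    set J : E d → ℕ := idx i0 (q i0 - r) h (2 * n) with hJ
    have hJm : Measurable J := measurable_idx _ _ _ _
    have hJlt : ∀ x, J x < 2 * n := fun x => idx_lt _ _ _ (by omega) x
    set T' : E d → E d := fun x => siteB i0 i1 y0 w δ (J x) with hT'
    set T : E d → E d := fun x => siteA i0 y0 w (J x) with hT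
    have hT'm : Measurable T' := (measurable_from_nat (f := siteB i0 i1 y0 w δ)).comp hJm
    have hTm : Measurable T := (measurable_from_nat (f := siteA i0 y0 w)).comp hJm
    have hPT : ∀ x, proj i1 y0 (T' x) = T x := fun x => proj_siteB h01 _ _ _ _
    -- the sites belong to `Y`
    have hwj : ∀ j : ℕ, j < 2 * n → |w * j| ≤ 2 * (κ * r) := by
      intro j hj
      rw [abs_of_nonneg (by positivity)]
      have h1 : (j : ℝ) ≤ 2 * n := by exact_mod_cast hj.le
      have h2 : w * n = κ * r := by rw [hw, hh]; field_simp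
      nlinarith
    have hAY : ∀ j : ℕ, j < 2 * n → siteA i0 y0 w j ∈ Y := by
      intro j hj
      apply interior_subset
      apply hball
      rw [Metric.mem_ball, dist_eq_norm]
      unfold siteA
      rw [add_sub_cancel_left, PiLp.norm_single, Real.norm_eq_abs]
      have := hwj j hj
      linarith
    have hBY : ∀ j : ℕ, j < 2 * n → siteB i0 i1 y0 w δ j ∈ Y := by
      intro j hj
      apply interior_subset
      apply hball
      rw [Metric.mem_ball, dist_eq_norm]
      have h1 := norm_sub_le (siteA i0 y0 w j - y0) (siteA i0 y0 w j - siteB i0 i1 y0 w δ j)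
      rw [site_dist i0 i1 y0 w hδ0.le j] at h1
      have h2 : siteA i0 y0 w j - y0 - (siteA i0 y0 w j - siteB i0 i1 y0 w δ j) =
          siteB i0 i1 y0 w δ j - y0 := by abel
      rw [h2] at h1
      have h3 : ‖siteA i0 y0 w j - y0‖ ≤ 2 * (κ * r) := by
        unfold siteA
        rw [add_sub_cancel_left, PiLp.norm_single, Real.norm_eq_abs]
        exact hwj j hj
      linarith
    have hTY : ∀ x, T x ∈ Y := fun x => hAY _ (hJlt x)
    have hT'Y : ∀ x, T' x ∈ Y := fun x => hBY _ (hJlt x)
    have hμ : IsProbabilityMeasure ((unif K).map T) :=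
      Measure.isProbabilityMeasure_map hTm.aemeasurable
    have hν : IsProbabilityMeasure ((unif K).map T') :=
      Measure.isProbabilityMeasure_map hT'm.aemeasurable
    have hsupp : ∀ U : E d → E d, Measurable U → (∀ x, U x ∈ Y) → (unif K).map U Yᶜ = 0 := by
      intro U hU hUY
      rw [Measure.map_apply hU hY.measurableSet.compl]
      have : U ⁻¹' Yᶜ = ∅ := by
        ext x
        simp [hUY x]
      rw [this, measure_empty]
    have hYM' : Y ⊆ closedBall 0 M := fun x hx => by
      simpa only [mem_closedBall, dist_zero_right] using hYM x hx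
    have hρR : (unif K) (closedBall 0 R)ᶜ = 0 := hRae.mono (fun x hx => by
      simpa only [mem_closedBall, dist_zero_right] using hx)
    obtain ⟨S, hS⟩ := H109.exists_optimalMap hRpos.le hMpos.le
      (unif_absolutelyContinuous K) hρR hν
      (measure_mono_null (compl_subset_compl.2 hYM') (hsupp T' hT'm hT'Y))
    have hToptA : IsOptimalMap (unif K) ((unif K).map T) T :=
      slab_isOptimal (unif K) i0 y0 (q i0 - r) hh0 hκ (by omega)
    -- the exchange
    set A : Set (E d) := piece i0 i1 q r h with hA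
    set v : E d := vec i0 i1 r h with hv
    have hAm : MeasurableSet A := measurableSet_piece _ _ _ _ _
    have hAv : ∀ x ∈ A, x + v ∉ A := fun x hx => piece_shift h01 hr hx
    have hAK : ∀ x ∈ A, x ∈ K := fun x hx => hcube x (piece_cube hr hx)
    have hAK' : ∀ x ∈ A, x + v ∈ K := fun x hx => hcube _ (piece_cube' h01 hr hn hx)
    have hmap := map_swap hAm hAv hK.measurableSet hAK hAK'
    have hTfun : (fun x => proj i1 y0 (T' x)) = T := funext hPT
    have hgain := gain_le (ρ := unif K) (M := M) hRae hT'm (measurable_proj i1 y0)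
      (measurable_swap hAm) hmap (swap_swap hAv) (fun x => hYM _ (hT'Y x))
      (fun x => by rw [hPT]; exact hYM _ (hTY x)) (by rw [hTfun]; exact hToptA) hS
    -- lower bound of the gain
    have hval : 3 * r * δ - h * w = 2 * κ * h ^ 2 := by
      rw [hδ, hw]; field_simp; ring
    have hpt : ∀ x, A.indicator (fun _ => 2 * κ * h ^ 2) x ≤
        (inner ℝ (swap A v x - x) (T' x - T' (swap A v x)) : ℝ) := by
      intro x
      by_cases hx : x ∈ A
      · rw [indicator_of_mem hx, swap_of_mem hx, add_sub_cancel_left, ← hval]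
        exact (piece_value h01 hr hn y0 w δ hx).ge
      · rw [indicator_of_notMem hx]
        by_cases hx' : x - v ∈ A
        · rw [swap_of_mem' hAv hx']
          have h1 := piece_value h01 hr hn y0 w δ hx'
          rw [← hv] at h1
          rw [sub_add_cancel] at h1
          have h2 : (inner ℝ (x - v - x) (T' x - T' (x - v)) : ℝ) =
              inner ℝ v (T' (x - v) - T' x) := by
            rw [show x - v - x = -v by abel, inner_neg_left, ← inner_neg_right, neg_sub]
          rw [h2]
          have h3 : (inner ℝ v (T' (x - v) - T' x) : ℝ) = 3 * r * δ - h * w := h1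
          rw [h3, hval]
          positivity
        · rw [swap_of_notMem hx hx', sub_self, inner_zero_left]
    have hswR : ∀ᵐ x ∂(unif K), ‖swap A v x‖ ≤ R := by
      have h1 : ∀ᵐ x ∂((unif K).map (swap A v)), ‖x‖ ≤ R := by rw [hmap]; exact hRae
      exact ae_of_ae_map (measurable_swap hAm).aemeasurable h1
    have hi1 : Integrable (fun x => (inner ℝ (swap A v x - x) (T' x - T' (swap A v x)) : ℝ))
        (unif K) := by
      apply integrable_inner_of_bdd (R := R + R) (M := M + M)
        ((measurable_swap hAm).sub measurable_id)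
        (hT'm.sub (hT'm.comp (measurable_swap hAm)))
      · filter_upwards [hswR, hRae] with x h1 h2
        exact (norm_sub_le _ _).trans (add_le_add h1 h2)
      · filter_upwards with x
        exact (norm_sub_le _ _).trans (add_le_add (hYM _ (hT'Y _)) (hYM _ (hT'Y _)))
    have hlow : 2 * κ * h ^ 2 * (unif K).real A ≤
        ∫ x, (inner ℝ (swap A v x - x) (T' x - T' (swap A v x)) : ℝ) ∂(unif K) := by
      have h1 : ∫ x, A.indicator (fun _ => 2 * κ * h ^ 2) x ∂(unif K) =
          2 * κ * h ^ 2 * (unif K).real A := by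
        rw [integral_indicator_const _ hAm, smul_eq_mul]
        ring
      rw [← h1]
      exact integral_mono ((integrable_const _).indicator hAm) hi1 hpt
    -- upper bound of the gain
    have hSM : ∀ᵐ x ∂(unif K), ‖S x‖ ≤ M := ae_norm_le_of_map hS.1 hS.2.1
      (measure_mono_null (compl_subset_compl.2 hYM') (hsupp T' hT'm hT'Y))
    have hSF : ∀ᵐ x ∂(unif K), ∃ k : ℕ, S x = siteB i0 i1 y0 w δ k := by
      have hF : MeasurableSet (range (siteB i0 i1 y0 w δ)) := (countable_range _).measurableSet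
      have h1 : ∀ᵐ y ∂((unif K).map T'), y ∈ range (siteB i0 i1 y0 w δ) := by
        refine (ae_map_iff (p := fun y => y ∈ range (siteB i0 i1 y0 w δ)) hT'm.aemeasurable
          hF).2 ?_
        filter_upwards with x
        exact ⟨J x, rfl⟩
      rw [← hS.2.1] at h1
      filter_upwards [ae_of_ae_map hS.1.aemeasurable h1] with x hx
      obtain ⟨k, hk⟩ := hx
      exact ⟨k, hk.symm⟩
    have hi2 : Integrable (fun x => ‖T x - S x‖) (unif K) := by
      apply Integrable.of_bound (hTm.sub hS.1).norm.aestronglyMeasurable (M + M)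
      filter_upwards [hSM] with x h1
      rw [norm_norm]
      exact (norm_sub_le _ _).trans (add_le_add (hYM _ (hTY x)) h1)
    have hup : ∫ x, (inner ℝ x ((S x - proj i1 y0 (S x)) - (T' x - proj i1 y0 (T' x))) : ℝ)
        ∂(unif K) ≤ R * (2 * δ / w) * ∫ x, ‖T x - S x‖ ∂(unif K) := by
      rw [← integral_const_mul]
      apply integral_mono_ae _ (hi2.const_mul _)
      · filter_upwards [hSF, hRae] with x hx hxR
        obtain ⟨k, hk⟩ := hx
        show (inner ℝ x ((S x - proj i1 y0 (S x)) - (T' x - proj i1 y0 (T' x))) : ℝ) ≤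
          R * (2 * δ / w) * ‖T x - S x‖
        rw [hk]
        exact site_pointwise h01 y0 x hw0 hδ0.le hxR (J x) k
      · have hPm := measurable_proj (d := d) i1 y0
        apply integrable_inner_of_bdd (R := R) (M := 4 * (M + M)) measurable_id
          ((hS.1.sub (hPm.comp hS.1)).sub (hT'm.sub (hPm.comp hT'm))) hRae
        filter_upwards [hSF] with x hx
        obtain ⟨k, hk⟩ := hx
        show ‖(S x - proj i1 y0 (S x)) - (T' x - proj i1 y0 (T' x))‖ ≤ 4 * (M + M)
        have hb : ∀ j : ℕ, ‖siteB i0 i1 y0 w δ j - proj i1 y0 (siteB i0 i1 y0 w δ j)‖ ≤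
            s' / 4 := by
          intro j
          rw [proj_siteB h01, norm_sub_rev, site_dist i0 i1 y0 w hδ0.le j]
          linarith
        have hs'M : s' ≤ 4 * (M + M) := by
          have e1 : siteA i0 y0 w 0 ∈ Y := hAY 0 (by omega)
          have hballY : ∀ z : E d, ‖z - y0‖ < s' → z ∈ Y := fun z hz =>
            interior_subset (hball (by rwa [Metric.mem_ball, dist_eq_norm]))
          have e2 : y0 + EuclideanSpace.single i0 (s' / 2) ∈ Y := by
            apply hballY
            rw [add_sub_cancel_left, PiLp.norm_single, Real.norm_eq_abs,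
              abs_of_pos (by positivity)]
            linarith
          have e3 : y0 ∈ Y := hballY y0 (by simpa using hs')
          have e4 := norm_sub_le (y0 + EuclideanSpace.single i0 (s' / 2)) y0
          rw [add_sub_cancel_left, PiLp.norm_single, Real.norm_eq_abs,
            abs_of_pos (by positivity)] at e4
          have e5 := hYM _ e2
          have e6 := hYM _ e3
          linarith
        have h1 : ‖S x - proj i1 y0 (S x)‖ ≤ s' / 4 := by rw [hk]; exact hb k
        have h2 : ‖T' x - proj i1 y0 (T' x)‖ ≤ s' / 4 := hb (J x)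
        refine (norm_sub_le _ _).trans ?_
        linarith
    -- the measure of the piece
    have hAβ : β ≤ (unif K).real A := by
      have h1 : unif K A = (volume K)⁻¹ * volume A := unif_apply_subset hAK hAm
      have h2 : volume Box ≤ 2 * volume A := piece_volume h01 hr hn
      have h3 : (volume K)⁻¹ * volume Box ≤ 2 * unif K A := by
        rw [h1]
        calc (volume K)⁻¹ * volume Box ≤ (volume K)⁻¹ * (2 * volume A) := by gcongr
          _ = 2 * ((volume K)⁻¹ * volume A) := by ring
      have h4 := ENNReal.toReal_mono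
        (ENNReal.mul_ne_top ENNReal.ofNat_ne_top (measure_ne_top (unif K) A)) h3
      rw [ENNReal.toReal_mul, ENNReal.toReal_mul, ENNReal.toReal_ofNat] at h4
      rw [← ENNReal.toReal_mul] at h4
      rw [hβdef, Measure.real]
      linarith
    -- the Wasserstein distance
    have hW : Wass p ((unif K).map T) ((unif K).map T') ≤ ENNReal.ofReal δ := by
      unfold Wass
      have hpair : Measurable fun x => (T x, T' x) := hTm.prodMk hT'm
      have h1 : (⨅ (π : Measure (E d × E d)) (_ : π.map Prod.fst = (unif K).map T)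
          (_ : π.map Prod.snd = (unif K).map T'), ∫⁻ z, ‖z.1 - z.2‖ₑ ^ p ∂π) ≤
          ENNReal.ofReal δ ^ p := by
        refine iInf_le_of_le ((unif K).map fun x => (T x, T' x)) ?_
        refine iInf_le_of_le (by rw [Measure.map_map measurable_fst hpair]; rfl) ?_
        refine iInf_le_of_le (by rw [Measure.map_map measurable_snd hpair]; rfl) ?_
        rw [lintegral_map (by fun_prop) hpair]
        have h2 : ∀ x, ‖T x - T' x‖ₑ = ENNReal.ofReal δ := by
          intro x
          rw [← ofReal_norm]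
          congr 1
          exact site_dist i0 i1 y0 w hδ0.le (J x)
        simp only [h2, lintegral_const, measure_univ, mul_one, le_refl]
      calc (⨅ (π : Measure (E d × E d)) (_ : π.map Prod.fst = (unif K).map T)
          (_ : π.map Prod.snd = (unif K).map T'), ∫⁻ z, ‖z.1 - z.2‖ₑ ^ p ∂π) ^ (1 / p)
          ≤ (ENNReal.ofReal δ ^ p) ^ (1 / p) := ENNReal.rpow_le_rpow h1 (by positivity)
        _ = ENNReal.ofReal δ := by
            rw [← ENNReal.rpow_mul, mul_one_div_cancel hp.ne', ENNReal.rpow_one]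
    have hest := hst _ _ hμ hν (hsupp T hTm hTY) (hsupp T' hT'm hT'Y) T S hToptA hS
    have hI0 : 0 ≤ ∫ x, ‖T x - S x‖ ∂(unif K) := integral_nonneg fun x => norm_nonneg _
    have hest' : ∫ x, ‖T x - S x‖ ∂(unif K) ≤ C * δ ^ α := by
      have h1 : ENNReal.ofReal (∫ x, ‖T x - S x‖ ∂(unif K)) ≤ ENNReal.ofReal (C * δ ^ α) := by
        rw [eLpNorm_one_eq_lintegral_enorm] at hest
        have h2 : ENNReal.ofReal (∫ x, ‖T x - S x‖ ∂(unif K)) =
            ∫⁻ x, ‖T x - S x‖ₑ ∂(unif K) := by
          rw [ofReal_integral_eq_lintegral_ofReal hi2 (ae_of_all _ fun x => norm_nonneg _)]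
          simp only [ofReal_norm]
        rw [h2]
        refine hest.trans ?_
        rw [ENNReal.ofReal_mul C.coe_nonneg, ENNReal.ofReal_coe_nnreal,
          ← ENNReal.ofReal_rpow_of_nonneg hδ0.le hα]
        gcongr
      rwa [ENNReal.ofReal_le_ofReal_iff (by positivity)] at h1
    have hδn : δ = κ * r / n ^ 2 := by rw [hδ, hh]; field_simp
    rw [← hδn]
    refine le_trans ?_ hest'
    have h3 : κ * h ^ 2 * β ≤ R * (2 * δ / w) * ∫ x, ‖T x - S x‖ ∂(unif K) := by
      have h4 : κ * h ^ 2 * β ≤ κ * h ^ 2 * (unif K).real A :=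
        mul_le_mul_of_nonneg_left hAβ (by positivity)
      have h5 := hgain.trans hup
      linarith
    have e1 : R * (2 * δ / w) = 2 * R * h / r := by rw [hδ, hw]; field_simp
    rw [e1] at h3
    have h6 : κ * r * β / (2 * R) * h * (2 * R * h / r) = κ * h ^ 2 * β := by field_simp
    have h7 : 0 < 2 * R * h / r := by positivity
    rw [← h6] at h3
    have h8 : κ * r * β / (2 * R) * h * (2 * R * h / r) ≤
        (∫ x, ‖T x - S x‖ ∂(unif K)) * (2 * R * h / r) := by linarith
    exact le_of_mul_le_mul_right h8 h7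
  -- conclusion
  by_contra hcon
  have hα2 : 0 < 2 * α - 1 := by
    have := not_le.1 hcon
    linarith
  set c1 : ℝ := κ * r * β / (2 * R) * r with hc1
  have hc1p : 0 < c1 := by positivity
  have hlim : Tendsto (fun n : ℕ => (n : ℝ) ^ (2 * α - 1)) atTop atTop :=
    (tendsto_rpow_atTop hα2).comp tendsto_natCast_atTop_atTop
  obtain ⟨n, hn1, hn2⟩ := ((hlim.eventually_gt_atTop (C * (κ * r) ^ α / c1)).and
    (eventually_gt_atTop 0)).exists
  have hnR : (0 : ℝ) < n := by exact_mod_cast hn2
  have hm := main n hn2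
  have e1 : (κ * r / n ^ 2) ^ α = (κ * r) ^ α * (n : ℝ) ^ (-(2 * α)) := by
    rw [Real.div_rpow (by positivity) (by positivity), ← Real.rpow_natCast (n : ℝ) 2,
      ← Real.rpow_mul hnR.le, Real.rpow_neg hnR.le]
    push_cast
    rfl
  rw [e1] at hm
  have e2 : κ * r * β / (2 * R) * (r / n) = c1 * (n : ℝ) ^ (-1 : ℝ) := by
    rw [hc1, Real.rpow_neg_one]; ring
  rw [e2] at hm
  have h3 : c1 * (n : ℝ) ^ (2 * α - 1) ≤ C * (κ * r) ^ α := by
    have h4 := mul_le_mul_of_nonneg_right hm (Real.rpow_nonneg hnR.le (2 * α))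
    have e3 : c1 * (n : ℝ) ^ (-1 : ℝ) * (n : ℝ) ^ (2 * α) = c1 * (n : ℝ) ^ (2 * α - 1) := by
      rw [mul_assoc, ← Real.rpow_add hnR]
      congr 2
      ring
    have e4 : C * ((κ * r) ^ α * (n : ℝ) ^ (-(2 * α))) * (n : ℝ) ^ (2 * α) =
        C * (κ * r) ^ α := by
      rw [mul_assoc, mul_assoc, ← Real.rpow_add hnR]
      simp
    rw [e3, e4] at h4
    exact h4
  rw [div_lt_iff₀ hc1p] at hn1
  linarith

end Vale.Agent.P074.H51
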