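import Vale.Agent.P074.H109.Main

open MeasureTheory Set Metric
open scoped ENNReal NNReal RealInnerProductSpace

namespace Vale.Agent.P074.H51

variable {d : ℕ}

/-- A map with values in a ball. -/
theorem integrable_inner_of_bdd {ρ : Measure (E d)} [IsProbabilityMeasure ρ] {R M : ℝ}
    {V U : E d → E d} (hV : Measurable V) (hU : Measurable U)
    (hVR : ∀ᵐ x ∂ρ, ‖V x‖ ≤ R) (hUM : ∀ᵐ x ∂ρ, ‖U x‖ ≤ M) :
    Integrable (fun x => (inner ℝ (V x) (U x) : ℝ)) ρ := by
  apply Integrable.of_bound (hV.inner hU).aestronglyMeasurable (R * M)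
  filter_upwards [hVR, hUM] with x h1 h2
  refine le_trans (norm_inner_le_norm _ _) ?_
  exact mul_le_mul h1 h2 (norm_nonneg _) ((norm_nonneg _).trans h1)

theorem ae_norm_le_of_map {ρ μ : Measure (E d)} {M : ℝ} {U : E d → E d} (hU : Measurable U)
    (hUμ : ρ.map U = μ) (hμM : μ (closedBall 0 M)ᶜ = 0) : ∀ᵐ x ∂ρ, ‖U x‖ ≤ M := by
  have h1 : ∀ᵐ y ∂μ, y ∈ closedBall (0 : E d) M := hμM
  rw [← hUμ] at h1
  filter_upwards [ae_of_ae_map hU.aemeasurable h1] with x hx
  simpa only [mem_closedBall, dist_zero_right] using hx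

theorem cost_eq {ρ : Measure (E d)} [IsProbabilityMeasure ρ] {R M : ℝ}
    (hρR : ∀ᵐ x ∂ρ, ‖x‖ ≤ R) {V : E d → E d} (hV : Measurable V)
    (hVM : ∀ᵐ x ∂ρ, ‖V x‖ ≤ M) :
    Integrable (fun x => ‖x - V x‖ ^ 2) ρ ∧
    ∫ x, ‖x - V x‖ ^ 2 ∂ρ =
      (∫ x, ‖x‖ ^ 2 ∂ρ) - 2 * (∫ x, (inner ℝ x (V x) : ℝ) ∂ρ) + ∫ y, ‖y‖ ^ 2 ∂(ρ.map V) := by
  have i0 : Integrable (fun x : E d => ‖x‖ ^ 2) ρ := by
    apply Integrable.of_bound (by fun_prop) (R ^ 2)
    filter_upwards [hρR] with x hx
    rw [Real.norm_eq_abs, abs_of_nonneg (sq_nonneg _)]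
    exact pow_le_pow_left₀ (norm_nonneg _) hx 2
  have i1 : Integrable (fun x : E d => (inner ℝ x (V x) : ℝ)) ρ :=
    integrable_inner_of_bdd measurable_id hV hρR hVM
  have i2 : Integrable (fun x : E d => ‖V x‖ ^ 2) ρ := by
    apply Integrable.of_bound (hV.norm.pow_const 2).aestronglyMeasurable (M ^ 2)
    filter_upwards [hVM] with x hx
    rw [Real.norm_eq_abs, abs_of_nonneg (sq_nonneg _)]
    exact pow_le_pow_left₀ (norm_nonneg _) hx 2
  have e0 : ∀ x : E d, ‖x - V x‖ ^ 2 = ‖x‖ ^ 2 - 2 * (inner ℝ x (V x) : ℝ) + ‖V x‖ ^ 2 :=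
    fun x => norm_sub_sq_real x (V x)
  constructor
  · simp only [e0]
    exact (i0.sub (i1.const_mul 2)).add i2
  · simp only [e0]
    have i3 : Integrable (fun x : E d => ‖x‖ ^ 2 - 2 * (inner ℝ x (V x) : ℝ)) ρ :=
      i0.sub (i1.const_mul 2)
    rw [integral_add i3 i2, integral_sub i0 (i1.const_mul 2),
      integral_const_mul, integral_map hV.aemeasurable (by fun_prop)]

/-- An optimal map maximises the correlation with the identity. -/
theorem inner_le_of_optimal {ρ μ : Measure (E d)} [IsProbabilityMeasure ρ] {R M : ℝ}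
    (hρR : ∀ᵐ x ∂ρ, ‖x‖ ≤ R) {T U : E d → E d} (hT : IsOptimalMap ρ μ T) (hU : Measurable U)
    (hUμ : ρ.map U = μ) (hμM : μ (closedBall 0 M)ᶜ = 0) :
    ∫ x, (inner ℝ x (U x) : ℝ) ∂ρ ≤ ∫ x, (inner ℝ x (T x) : ℝ) ∂ρ := by
  have hTM : ∀ᵐ x ∂ρ, ‖T x‖ ≤ M := ae_norm_le_of_map hT.1 hT.2.1 hμM
  have hUM : ∀ᵐ x ∂ρ, ‖U x‖ ≤ M := ae_norm_le_of_map hU hUμ hμM
  obtain ⟨iT, eT⟩ := cost_eq hρR hT.1 hTM
  obtain ⟨iU, eU⟩ := cost_eq hρR hU hUM
  have key : ∀ V : E d → E d, Integrable (fun x => ‖x - V x‖ ^ 2) ρ →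
      ∫⁻ x, ‖x - V x‖ₑ ^ 2 ∂ρ = ENNReal.ofReal (∫ x, ‖x - V x‖ ^ 2 ∂ρ) := by
    intro V hV
    rw [ofReal_integral_eq_lintegral_ofReal hV (ae_of_all _ fun x => by positivity)]
    apply lintegral_congr
    intro x
    rw [ENNReal.ofReal_pow (norm_nonneg _), ofReal_norm]
  have h1 := hT.2.2 U hU hUμ
  rw [key T iT, key U iU, ENNReal.ofReal_le_ofReal_iff (integral_nonneg fun x => by positivity),
    eT, eU, hT.2.1, hUμ] at h1
  linarith

/-- The map exchanging a set `A` with its translate by `v`. -/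
noncomputable def swap (A : Set (E d)) (v : E d) (x : E d) : E d :=
  open Classical in if x ∈ A then x + v else if x - v ∈ A then x - v else x

variable {A K : Set (E d)} {v : E d}

theorem swap_of_mem {x : E d} (hx : x ∈ A) : swap A v x = x + v := by
  unfold swap; rw [if_pos hx]

theorem swap_of_mem' (hA : ∀ x ∈ A, x + v ∉ A) {x : E d} (hx : x - v ∈ A) :
    swap A v x = x - v := by
  unfold swap
  have : x ∉ A := by
    have := hA _ hx
    rwa [sub_add_cancel] at this
  rw [if_neg this, if_pos hx]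

theorem swap_of_notMem {x : E d} (hx : x ∉ A) (hx' : x - v ∉ A) : swap A v x = x := by
  unfold swap; rw [if_neg hx, if_neg hx']

theorem measurable_swap (hA : MeasurableSet A) : Measurable (swap A v) := by
  classical
  unfold swap
  apply Measurable.ite hA (measurable_id.add_const v)
  apply Measurable.ite _ (measurable_id.sub_const v) measurable_id
  exact hA.preimage (measurable_id.sub_const v)

theorem swap_swap (hA : ∀ x ∈ A, x + v ∉ A) (x : E d) : swap A v (swap A v x) = x := by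
  by_cases h1 : x ∈ A
  · rw [swap_of_mem h1, swap_of_mem' hA (by rwa [add_sub_cancel_right]), add_sub_cancel_right]
  · by_cases h2 : x - v ∈ A
    · rw [swap_of_mem' hA h2, swap_of_mem h2, sub_add_cancel]
    · rw [swap_of_notMem h1 h2, swap_of_notMem h1 h2]

/-- The exchange preserves the uniform measure of a set containing both pieces. -/
theorem map_swap (hAm : MeasurableSet A) (hA : ∀ x ∈ A, x + v ∉ A) (hK : MeasurableSet K)
    (hAK : ∀ x ∈ A, x ∈ K) (hAK' : ∀ x ∈ A, x + v ∈ K) :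
    (unif K).map (swap A v) = unif K := by
  have hm := measurable_swap (v := v) hAm
  have h : (volume.restrict K).map (swap A v) = volume.restrict K := by
    ext B hB
    rw [Measure.map_apply hm hB, Measure.restrict_apply (hm hB), Measure.restrict_apply hB]
    have hA' : MeasurableSet {x | x - v ∈ A} := hAm.preimage (measurable_id.sub_const v)
    -- split both sides into three pieces
    have e1 : (swap A v ⁻¹' B ∩ K) =
        ({x | x ∈ A ∧ x + v ∈ B} ∪ {x | x - v ∈ A ∧ x - v ∈ B}) ∪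
          ((B ∩ K) \ (A ∪ {x | x - v ∈ A})) := by
      ext x
      simp only [mem_inter_iff, mem_preimage, mem_union, mem_ofPred_eq, mem_sdiff, not_or]
      by_cases h1 : x ∈ A
      · have h3 : x - v ∉ A := fun h => (hA _ h) (by rwa [sub_add_cancel])
        rw [swap_of_mem h1]
        simp only [h1, h3, hAK x h1, and_true, true_and, false_and, or_false, not_true_eq_false,
          and_false]
      · by_cases h2 : x - v ∈ A
        · have h4 : x ∈ K := by
            have := hAK' _ h2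
            rwa [sub_add_cancel] at this
          rw [swap_of_mem' hA h2]
          simp only [h1, h2, h4, and_true, true_and, false_and, false_or, or_false,
            not_true_eq_false, and_false]
        · rw [swap_of_notMem h1 h2]
          simp only [h1, h2, false_and, false_or, not_false_eq_true, and_true]
    have e2 : (B ∩ K) =
        ({x | x ∈ A ∧ x ∈ B} ∪ {x | x - v ∈ A ∧ x ∈ B}) ∪
          ((B ∩ K) \ (A ∪ {x | x - v ∈ A})) := by
      ext x
      simp only [mem_inter_iff, mem_union, mem_ofPred_eq, mem_sdiff, not_or]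
      by_cases h1 : x ∈ A
      · simp only [h1, hAK x h1, and_true, true_and, not_true_eq_false, and_false,
          false_and, or_false]
        tauto
      · by_cases h2 : x - v ∈ A
        · have h4 : x ∈ K := by
            have := hAK' _ h2
            rwa [sub_add_cancel] at this
          simp only [h1, h2, h4, and_true, true_and, false_and, false_or, not_true_eq_false,
            and_false, or_false]
        · simp only [h1, h2, false_and, false_or, not_false_eq_true, and_true]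
    have m1 : MeasurableSet {x | x ∈ A ∧ x + v ∈ B} :=
      hAm.inter (hB.preimage (measurable_id.add_const v))
    have m2 : MeasurableSet {x | x - v ∈ A ∧ x - v ∈ B} :=
      hA'.inter (hB.preimage (measurable_id.sub_const v))
    have m3 : MeasurableSet {x | x ∈ A ∧ x ∈ B} := hAm.inter hB
    have m4 : MeasurableSet {x | x - v ∈ A ∧ x ∈ B} := hA'.inter hB
    have m5 : MeasurableSet ((B ∩ K) \ (A ∪ {x | x - v ∈ A})) :=
      (hB.inter hK).diff (hAm.union hA')
    have d1 : Disjoint {x | x ∈ A ∧ x + v ∈ B} {x | x - v ∈ A ∧ x - v ∈ B} := by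
      rw [Set.disjoint_left]
      rintro x ⟨h1, _⟩ ⟨h2, _⟩
      exact (hA _ h2) (by rwa [sub_add_cancel])
    have d2 : Disjoint {x | x ∈ A ∧ x ∈ B} {x | x - v ∈ A ∧ x ∈ B} := by
      rw [Set.disjoint_left]
      rintro x ⟨h1, _⟩ ⟨h2, _⟩
      exact (hA _ h2) (by rwa [sub_add_cancel])
    have d3 : Disjoint ({x | x ∈ A ∧ x + v ∈ B} ∪ {x | x - v ∈ A ∧ x - v ∈ B})
        ((B ∩ K) \ (A ∪ {x | x - v ∈ A})) := by
      rw [Set.disjoint_left]
      rintro x (⟨h1, _⟩ | ⟨h1, _⟩) ⟨_, h2⟩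
      · exact h2 (Or.inl h1)
      · exact h2 (Or.inr h1)
    have d4 : Disjoint ({x | x ∈ A ∧ x ∈ B} ∪ {x | x - v ∈ A ∧ x ∈ B})
        ((B ∩ K) \ (A ∪ {x | x - v ∈ A})) := by
      rw [Set.disjoint_left]
      rintro x (⟨h1, _⟩ | ⟨h1, _⟩) ⟨_, h2⟩
      · exact h2 (Or.inl h1)
      · exact h2 (Or.inr h1)
    have t1 : volume {x | x ∈ A ∧ x + v ∈ B} = volume {x | x - v ∈ A ∧ x ∈ B} := by
      have : {x | x ∈ A ∧ x + v ∈ B} = (fun x => x + v) ⁻¹' {x | x - v ∈ A ∧ x ∈ B} := by
        ext x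
        simp only [mem_ofPred_eq, mem_preimage, add_sub_cancel_right]
      rw [this, measure_preimage_add_right]
    have t2 : volume {x | x - v ∈ A ∧ x - v ∈ B} = volume {x | x ∈ A ∧ x ∈ B} := by
      have : {x | x - v ∈ A ∧ x - v ∈ B} = (fun x => x + (-v)) ⁻¹' {x | x ∈ A ∧ x ∈ B} := by
        ext x
        simp only [mem_ofPred_eq, mem_preimage, sub_eq_add_neg]
      rw [this, measure_preimage_add_right]
    rw [e1, measure_union d3 m5, measure_union d1 m2, t1, t2]
    conv_rhs => rw [e2, measure_union d4 m5, measure_union d2 m4]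
    rw [add_comm (volume {x | x - v ∈ A ∧ x ∈ B})]
  unfold unif ProbabilityTheory.cond
  rw [Measure.map_smul, h]

end Vale.Agent.P074.H51
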