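import Vale.Agent.P074.H51.Energy
import Mathlib.MeasureTheory.Function.Floor

open MeasureTheory Set Metric
open scoped ENNReal NNReal RealInnerProductSpace

namespace Vale.Agent.P074.H51

variable {d : ℕ}

/-- The energy comparison for an exchange of two pieces. -/
theorem gain_le {ρ : Measure (E d)} [IsProbabilityMeasure ρ] {R M : ℝ}
    (hρR : ∀ᵐ x ∂ρ, ‖x‖ ≤ R) {T' S P Φ : E d → E d} (hT' : Measurable T') (hP : Measurable P)
    (hΦ : Measurable Φ) (hΦρ : ρ.map Φ = ρ) (hΦΦ : ∀ x, Φ (Φ x) = x)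
    (hT'M : ∀ x, ‖T' x‖ ≤ M) (hPM : ∀ x, ‖P (T' x)‖ ≤ M)
    (hT : IsOptimalMap ρ (ρ.map fun x => P (T' x)) (fun x => P (T' x)))
    (hS : IsOptimalMap ρ (ρ.map T') S) :
    1 / 2 * ∫ x, (inner ℝ (Φ x - x) (T' x - T' (Φ x)) : ℝ) ∂ρ ≤
      ∫ x, (inner ℝ x ((S x - P (S x)) - (T' x - P (T' x))) : ℝ) ∂ρ := by
  have hSm := hS.1
  have hνM : (ρ.map T') (closedBall 0 M)ᶜ = 0 := by
    rw [Measure.map_apply hT' isClosed_closedBall.measurableSet.compl]
    have : T' ⁻¹' (closedBall 0 M)ᶜ = ∅ := by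
      ext x
      simp [hT'M x]
    rw [this, measure_empty]
  have hPT'm : Measurable fun x => P (T' x) := hP.comp hT'
  have hμM : (ρ.map fun x => P (T' x)) (closedBall 0 M)ᶜ = 0 := by
    rw [Measure.map_apply hPT'm isClosed_closedBall.measurableSet.compl]
    have : (fun x => P (T' x)) ⁻¹' (closedBall 0 M)ᶜ = ∅ := by
      ext x
      simp [hPM x]
    rw [this, measure_empty]
  have hPSμ : ρ.map (fun x => P (S x)) = ρ.map fun x => P (T' x) := by
    have h1 := Measure.map_map (μ := ρ) hP hSm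
    have h2 := Measure.map_map (μ := ρ) hP hT'
    rw [hS.2.1] at h1
    exact h1.symm.trans h2
  have hTΦ : ρ.map (fun x => T' (Φ x)) = ρ.map T' := by
    have h1 := Measure.map_map (μ := ρ) hT' hΦ
    rw [hΦρ] at h1
    exact h1.symm
  have hSM : ∀ᵐ x ∂ρ, ‖S x‖ ≤ M := ae_norm_le_of_map hSm hS.2.1 hνM
  have hPSM : ∀ᵐ x ∂ρ, ‖P (S x)‖ ≤ M := ae_norm_le_of_map (hP.comp hSm) hPSμ hμM
  have hΦR : ∀ᵐ x ∂ρ, ‖Φ x‖ ≤ R := by
    have h1 : ∀ᵐ x ∂(ρ.map Φ), ‖x‖ ≤ R := by rw [hΦρ]; exact hρR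
    exact ae_of_ae_map hΦ.aemeasurable h1
  have a1 := inner_le_of_optimal hρR hS (hT'.comp hΦ) hTΦ hνM
  have a2 := inner_le_of_optimal hρR hT (hP.comp hSm) hPSμ hμM
  simp only [Function.comp] at a1 a2
  -- integrability
  have i1 : Integrable (fun x : E d => (inner ℝ x (T' x) : ℝ)) ρ :=
    integrable_inner_of_bdd measurable_id hT' hρR (ae_of_all _ hT'M)
  have i2 : Integrable (fun x : E d => (inner ℝ x (T' (Φ x)) : ℝ)) ρ :=
    integrable_inner_of_bdd measurable_id (hT'.comp hΦ) hρR (ae_of_all _ fun x => hT'M _)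
  have i3 : Integrable (fun x : E d => (inner ℝ (Φ x) (T' x) : ℝ)) ρ :=
    integrable_inner_of_bdd hΦ hT' hΦR (ae_of_all _ hT'M)
  have i4 : Integrable (fun x : E d => (inner ℝ (Φ x) (T' (Φ x)) : ℝ)) ρ :=
    integrable_inner_of_bdd hΦ (hT'.comp hΦ) hΦR (ae_of_all _ fun x => hT'M _)
  have i5 : Integrable (fun x : E d => (inner ℝ x (S x) : ℝ)) ρ :=
    integrable_inner_of_bdd measurable_id hSm hρR hSM
  have i6 : Integrable (fun x : E d => (inner ℝ x (P (S x)) : ℝ)) ρ :=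
    integrable_inner_of_bdd measurable_id (hP.comp hSm) hρR hPSM
  have i7 : Integrable (fun x : E d => (inner ℝ x (P (T' x)) : ℝ)) ρ :=
    integrable_inner_of_bdd measurable_id hPT'm hρR (ae_of_all _ hPM)
  -- the substitution
  have s1 : ∫ x, (inner ℝ x (T' (Φ x)) : ℝ) ∂ρ = ∫ x, (inner ℝ (Φ x) (T' x) : ℝ) ∂ρ := by
    have h1 := integral_map (μ := ρ) hΦ.aemeasurable
      (f := fun x : E d => (inner ℝ (Φ x) (T' x) : ℝ)) (hΦ.inner hT').aestronglyMeasurable
    rw [hΦρ] at h1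
    rw [h1]
    simp only [hΦΦ]
  have s2 : ∫ x, (inner ℝ (Φ x) (T' (Φ x)) : ℝ) ∂ρ = ∫ x, (inner ℝ x (T' x) : ℝ) ∂ρ := by
    have h1 := integral_map (μ := ρ) hΦ.aemeasurable
      (f := fun x : E d => (inner ℝ x (T' x) : ℝ)) (measurable_id.inner hT').aestronglyMeasurable
    rw [hΦρ] at h1
    exact h1.symm
  have e1 : ∫ x, (inner ℝ (Φ x - x) (T' x - T' (Φ x)) : ℝ) ∂ρ =
      2 * (∫ x, (inner ℝ x (T' (Φ x)) : ℝ) ∂ρ) - 2 * ∫ x, (inner ℝ x (T' x) : ℝ) ∂ρ := by
    have h1 : ∀ x : E d, (inner ℝ (Φ x - x) (T' x - T' (Φ x)) : ℝ) =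
        ((inner ℝ (Φ x) (T' x) : ℝ) + (inner ℝ x (T' (Φ x)) : ℝ)) -
          ((inner ℝ (Φ x) (T' (Φ x)) : ℝ) + (inner ℝ x (T' x) : ℝ)) := by
      intro x
      simp only [inner_sub_left, inner_sub_right]
      ring
    simp only [h1]
    have j1 : Integrable (fun x : E d => (inner ℝ (Φ x) (T' x) : ℝ) + (inner ℝ x (T' (Φ x)) : ℝ)) ρ :=
      i3.add i2
    have j2 : Integrable (fun x : E d => (inner ℝ (Φ x) (T' (Φ x)) : ℝ) + (inner ℝ x (T' x) : ℝ)) ρ :=
      i4.add i1
    rw [integral_sub j1 j2, integral_add i3 i2, integral_add i4 i1, ← s1, s2]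
    ring
  have e2 : ∫ x, (inner ℝ x ((S x - P (S x)) - (T' x - P (T' x))) : ℝ) ∂ρ =
      ((∫ x, (inner ℝ x (S x) : ℝ) ∂ρ) - ∫ x, (inner ℝ x (P (S x)) : ℝ) ∂ρ) -
        ((∫ x, (inner ℝ x (T' x) : ℝ) ∂ρ) - ∫ x, (inner ℝ x (P (T' x)) : ℝ) ∂ρ) := by
    have j1 : Integrable (fun x : E d => (inner ℝ x (S x) : ℝ) - (inner ℝ x (P (S x)) : ℝ)) ρ :=
      i5.sub i6
    have j2 : Integrable (fun x : E d => (inner ℝ x (T' x) : ℝ) - (inner ℝ x (P (T' x)) : ℝ)) ρ :=
      i1.sub i7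
    simp only [inner_sub_right]
    rw [integral_sub j1 j2, integral_sub i5 i6, integral_sub i1 i7]
  rw [e1, e2]
  linarith

/-- The number of the slab containing `x`. -/
noncomputable def idx (i0 : Fin d) (c h : ℝ) (N : ℕ) (x : E d) : ℕ :=
  min ⌊(x i0 - c) / h⌋₊ (N - 1)

theorem measurable_idx (i0 : Fin d) (c h : ℝ) (N : ℕ) : Measurable (idx (d := d) i0 c h N) := by
  unfold idx
  apply Measurable.min _ measurable_const
  have : Measurable fun x : E d => (x i0 - c) / h := by fun_prop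
  exact this.nat_floor

theorem idx_lt (i0 : Fin d) (c h : ℝ) {N : ℕ} (hN : 0 < N) (x : E d) : idx i0 c h N x < N := by
  unfold idx
  have := min_le_right ⌊(x i0 - c) / h⌋₊ (N - 1)
  omega

/-- The slab of `x` maximises the tangent lines. -/
theorem idx_max (i0 : Fin d) (c : ℝ) {h : ℝ} (hh : 0 < h) {N j : ℕ} (hj : j < N) (x : E d) :
    (j : ℝ) * (x i0 - c) - h * (j * (j + 1)) / 2 ≤
      (idx i0 c h N x : ℝ) * (x i0 - c) -
        h * ((idx i0 c h N x : ℝ) * ((idx i0 c h N x : ℝ) + 1)) / 2 := by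
  set s := x i0 - c with hs
  have hm : idx i0 c h N x = min ⌊s / h⌋₊ (N - 1) := rfl
  set m := idx i0 c h N x with hmdef
  rcases lt_trichotomy j m with h1 | h1 | h1
  · have h2 : m ≤ ⌊s / h⌋₊ := by rw [hm]; exact min_le_left _ _
    have h3 : (m : ℝ) ≤ s / h := (Nat.le_floor_iff' (by omega)).1 h2
    rw [le_div_iff₀ hh] at h3
    have h4 : (j : ℝ) + 1 ≤ m := by exact_mod_cast h1
    have h5 : 0 ≤ ((m : ℝ) - j) * (s - h * (m + j + 1) / 2) := by
      apply mul_nonneg (by linarith)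
      nlinarith
    nlinarith
  · rw [h1]
  · have h2 : m = ⌊s / h⌋₊ := by
      rw [hm]
      apply min_eq_left
      by_contra hcon
      have : m = N - 1 := by rw [hm]; exact min_eq_right (by omega)
      omega
    have h3 : s / h < m + 1 := by rw [h2]; exact Nat.lt_floor_add_one _
    rw [div_lt_iff₀ hh] at h3
    have h4 : (m : ℝ) + 1 ≤ j := by exact_mod_cast h1
    have h5 : 0 ≤ ((j : ℝ) - m) * (h * (m + j + 1) / 2 - s) := by
      apply mul_nonneg (by linarith)
      nlinarith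
    nlinarith

/-- The sites on a line. -/
noncomputable def siteA (i0 : Fin d) (y0 : E d) (w : ℝ) (j : ℕ) : E d :=
  y0 + EuclideanSpace.single i0 (w * j)

/-- The sites displaced alternately by `δ`. -/
noncomputable def siteB (i0 i1 : Fin d) (y0 : E d) (w δ : ℝ) (j : ℕ) : E d :=
  y0 + EuclideanSpace.single i0 (w * j) +
    EuclideanSpace.single i1 (if Even j then -δ else δ)

/-- The projection along the coordinate `i1`. -/
noncomputable def proj (i1 : Fin d) (y0 y : E d) : E d :=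
  y - EuclideanSpace.single i1 (y i1 - y0 i1)

theorem measurable_proj (i1 : Fin d) (y0 : E d) : Measurable (proj i1 y0) := by
  unfold proj
  apply Measurable.sub measurable_id
  have : Continuous fun y : E d => (EuclideanSpace.single i1 (y i1 - y0 i1) : E d) := by
    have h : ∀ y : E d, (EuclideanSpace.single i1 (y i1 - y0 i1) : E d) =
        (y i1 - y0 i1) • EuclideanSpace.single i1 (1 : ℝ) := by
      intro y
      ext j
      by_cases hj : j = i1
      · subst hj; simp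
      · simp [hj]
    simp only [h]
    fun_prop
  exact this.measurable

theorem proj_siteB {i0 i1 : Fin d} (h01 : i0 ≠ i1) (y0 : E d) (w δ : ℝ) (j : ℕ) :
    proj i1 y0 (siteB i0 i1 y0 w δ j) = siteA i0 y0 w j := by
  unfold proj siteB siteA
  ext k
  by_cases hk : k = i1
  · subst hk
    simp [h01.symm]
  · simp [hk]

/-- The slab map is optimal. -/
theorem slab_isOptimal (ρ : Measure (E d)) [IsFiniteMeasure ρ] (i0 : Fin d) (y0 : E d)
    (c : ℝ) {h κ : ℝ} (hh : 0 < h) (hκ : 0 < κ) {N : ℕ} (hN : 0 < N) :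
    IsOptimalMap ρ (ρ.map fun x => siteA i0 y0 (κ * h) (idx i0 c h N x))
      (fun x => siteA i0 y0 (κ * h) (idx i0 c h N x)) := by
  set F : Set (E d) := siteA i0 y0 (κ * h) '' (Iio N) with hF
  have hFfin : F.Finite := (finite_Iio N).image _
  set g : E d → ℝ := fun y => (y i0 - y0 i0) * c + (y i0 - y0 i0) ^ 2 / (2 * κ)
    + h * (y i0 - y0 i0) / 2 with hg
  have hgm : Measurable g := by rw [hg]; fun_prop
  have hgA : ∀ j : ℕ, g (siteA i0 y0 (κ * h) j) =
      κ * h * (j * c + h * (j * (j + 1)) / 2) := by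
    intro j
    simp only [hg, siteA, PiLp.add_apply, PiLp.single_eq_same, add_sub_cancel_left]
    field_simp
    ring
  have hTm : Measurable fun x => siteA i0 y0 (κ * h) (idx i0 c h N x) :=
    (measurable_from_nat (f := siteA i0 y0 (κ * h))).comp (measurable_idx i0 c h N)
  set T : E d → E d := fun x => siteA i0 y0 (κ * h) (idx i0 c h N x) with hT
  have hTF : ∀ x, T x ∈ F := fun x => ⟨_, idx_lt i0 c h hN x, rfl⟩
  have hin : ∀ (x : E d) (j : ℕ), (inner ℝ x (siteA i0 y0 (κ * h) j) : ℝ) =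
      inner ℝ x y0 + κ * h * (j * x i0) := by
    intro x j
    unfold siteA
    rw [inner_add_right, EuclideanSpace.inner_single_right]
    simp only [conj_trivial]
    ring
  obtain ⟨B, hB⟩ := (hFfin.image fun y => ‖y‖ ^ 2 - 2 * g y).bddBelow
  obtain ⟨A, hA⟩ := (hFfin.image fun y => ‖y‖ ^ 2 - 2 * g y).bddAbove
  apply isOptimalMap_of_dual ρ T hTm F hFfin.measurableSet hTF
    (fun x => ‖x‖ ^ 2 - 2 * ((inner ℝ x (T x) : ℝ) - g (T x))) (fun y => ‖y‖ ^ 2 - 2 * g y)
    (by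
      have h1 : Measurable fun x : E d => (inner ℝ x (T x) : ℝ) := measurable_id.inner hTm
      have h2 : Measurable fun x : E d => g (T x) := hgm.comp hTm
      exact (measurable_norm.pow_const 2).sub ((h1.sub h2).const_mul 2))
    (by exact (measurable_norm.pow_const 2).sub (hgm.const_mul 2)) A (-B)
  · filter_upwards with x
    have h1 := hA ⟨T x, hTF x, rfl⟩
    have h2 := norm_sub_sq_real x (T x)
    have h3 := sq_nonneg ‖x - T x‖
    simp only at h1
    show -A ≤ ‖x‖ ^ 2 - 2 * ((inner ℝ x (T x) : ℝ) - g (T x))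
    linarith
  · intro y hy
    have := hB ⟨y, hy, rfl⟩
    rw [neg_neg]
    exact this
  · rintro x y ⟨j, hj, rfl⟩
    rw [norm_sub_sq_real]
    have h1 := idx_max i0 c hh hj x
    have h2 : (inner ℝ x (siteA i0 y0 (κ * h) j) : ℝ) - g (siteA i0 y0 (κ * h) j) ≤
        (inner ℝ x (T x) : ℝ) - g (T x) := by
      rw [hT, hgA, hgA, hin, hin]
      have h3 := mul_le_mul_of_nonneg_left h1 (mul_pos hκ hh).le
      linarith
    linarith
  · filter_upwards with x
    rw [norm_sub_sq_real]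
    ring

/-- The displacement between the two families of sites. -/
theorem site_dist (i0 i1 : Fin d) (y0 : E d) (w : ℝ) {δ : ℝ} (hδ : 0 ≤ δ) (j : ℕ) :
    ‖siteA i0 y0 w j - siteB i0 i1 y0 w δ j‖ = δ := by
  have : siteA i0 y0 w j - siteB i0 i1 y0 w δ j =
      EuclideanSpace.single i1 (-(if Even j then -δ else δ)) := by
    unfold siteA siteB
    ext k
    by_cases hk : k = i1
    · subst hk; simp
    · simp [hk]
  rw [this, PiLp.norm_single, Real.norm_eq_abs]
  split_ifs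
  · rw [neg_neg, abs_of_nonneg hδ]
  · rw [abs_neg, abs_of_nonneg hδ]

/-- Different indices give distant sites. -/
theorem site_far {i0 i1 : Fin d} (h01 : i0 ≠ i1) (y0 : E d) {w : ℝ} (hw : 0 ≤ w) (δ : ℝ)
    {j k : ℕ} (hjk : j ≠ k) :
    w ≤ ‖siteA i0 y0 w j - siteB i0 i1 y0 w δ k‖ := by
  have h1 := PiLp.norm_apply_le (siteA i0 y0 w j - siteB i0 i1 y0 w δ k : E d) i0
  refine le_trans ?_ h1
  have h2 : (siteA i0 y0 w j - siteB i0 i1 y0 w δ k : E d) i0 = w * ((j : ℝ) - k) := by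
    unfold siteA siteB
    simp [h01]
    ring
  rw [h2, Real.norm_eq_abs, abs_mul, abs_of_nonneg hw]
  have h3 : (1 : ℝ) ≤ |(j : ℝ) - k| := by
    have h4 : (1 : ℤ) ≤ |(j : ℤ) - k| := Int.one_le_abs (by omega)
    exact_mod_cast h4
  nlinarith

/-- The pointwise bound of the energy difference. -/
theorem site_pointwise {i0 i1 : Fin d} (h01 : i0 ≠ i1) (y0 x : E d) {w δ R : ℝ} (hw : 0 < w)
    (hδ : 0 ≤ δ) (hR : ‖x‖ ≤ R) (j k : ℕ) :
    (inner ℝ x ((siteB i0 i1 y0 w δ k - proj i1 y0 (siteB i0 i1 y0 w δ k)) -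
      (siteB i0 i1 y0 w δ j - proj i1 y0 (siteB i0 i1 y0 w δ j))) : ℝ) ≤
      R * (2 * δ / w) * ‖siteA i0 y0 w j - siteB i0 i1 y0 w δ k‖ := by
  have hR0 : 0 ≤ R := (norm_nonneg _).trans hR
  by_cases hjk : j = k
  · subst hjk
    rw [sub_self, inner_zero_right]
    positivity
  · have h1 := site_far h01 y0 hw.le δ hjk
    have h2 : (siteB i0 i1 y0 w δ k - proj i1 y0 (siteB i0 i1 y0 w δ k)) -
        (siteB i0 i1 y0 w δ j - proj i1 y0 (siteB i0 i1 y0 w δ j)) =
        EuclideanSpace.single i1 ((if Even k then -δ else δ) - (if Even j then -δ else δ)) := by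
      rw [proj_siteB h01, proj_siteB h01]
      unfold siteB siteA
      ext l
      by_cases hl : l = i1
      · subst hl; simp
      · simp [hl]
    rw [h2, EuclideanSpace.inner_single_right]
    simp only [conj_trivial]
    have h3 : |(if Even k then -δ else δ) - (if Even j then -δ else δ)| ≤ 2 * δ := by
      split_ifs <;> rw [abs_le] <;> constructor <;> linarith
    have h4 : |x i1| ≤ R := (PiLp.norm_apply_le x i1).trans hR
    calc ((if Even k then -δ else δ) - (if Even j then -δ else δ)) * x i1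
        ≤ |((if Even k then -δ else δ) - (if Even j then -δ else δ)) * x i1| := le_abs_self _
      _ ≤ 2 * δ * R := by
          rw [abs_mul]
          exact mul_le_mul h3 h4 (abs_nonneg _) (by positivity)
      _ = R * (2 * δ / w) * w := by field_simp
      _ ≤ _ := mul_le_mul_of_nonneg_left h1 (by positivity)

end Vale.Agent.P074.H51
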